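import Vale.Agent.Lib.P344.Norm

/-!
# P344: linear circuits for the discrete Fourier transform with few large coefficients

`Comp n C l s L` (file `Vale/Agent/Lib/P344/Defs.lean`) says that a linear circuit with `n` inputs
and `s` gates computes the values in the list `l`; here `L.length` is the number of its scalar
multiplications which are allowed to have an unrestricted coefficient, all the other scalar
multiplications have a coefficient of modulus at most `C`.
-/

namespace Vale.Agent.Results.P344.FewLargeCoefficients

open Vale.Agent.P344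

/-- Lower bounds for linear circuits computing the discrete Fourier transform of length `n`, with
`r = L.length` unrestricted scalar multiplications and any number of scalar multiplications with
coefficients of modulus at most `C`: a bound for all `n` and `r`, its asymptotic form for
`r ≤ (1 - ε) n`, and a reduction of all circuits to circuits with `r = n` and `C = 1`. -/
theorem result :
    (∀ (n : ℕ) (C : ℝ) (l : List (Form n)) (s : ℕ) (L : List (Form n)), 1 ≤ n → 2 ≤ C →
      Comp n C l s L → (∀ j : Fin n, dft n j ∈ l) →
        ((n : ℝ) - L.length) / 2 * Real.logb 2 n - n / 2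
          ≤ ((s : ℝ) - L.length) * Real.logb 2 C) ∧
    (∀ ε C : ℝ, 0 < ε → 2 ≤ C → ∃ c : ℝ, 0 < c ∧ ∃ N : ℕ, ∀ n : ℕ, N ≤ n →
      ∀ (l : List (Form n)) (s : ℕ) (L : List (Form n)), Comp n C l s L →
        (∀ j : Fin n, dft n j ∈ l) → (L.length : ℝ) ≤ (1 - ε) * n →
          c * n * Real.logb 2 n ≤ s) ∧
    (∀ (n : ℕ) (C : ℝ) (l : List (Form n)) (s : ℕ) (L : List (Form n)), Comp n C l s L →
      (∀ j : Fin n, dft n j ∈ l) →
        ∃ (l' : List (Form n)) (s' : ℕ) (L' : List (Form n)), Comp n 1 l' s' L' ∧
          (∀ j : Fin n, dft n j ∈ l') ∧ L'.length = n ∧ s' ≤ 2 * s + n) :=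
  ⟨fun _ _ _ _ _ hn hC h hF => main_bound hn hC h hF, fun _ _ hε hC => asymptotic hε hC,
    fun _ _ _ _ _ h hF => at_most_n h hF⟩

end Vale.Agent.Results.P344.FewLargeCoefficients
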