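import Vale.Agent.Lib.P344.Poly

/-!
# P344: linear circuits for the discrete Fourier transform with few very large coefficients

`Comp n C l s L` (file `Vale/Agent/Lib/P344/Defs.lean`) says that a linear circuit with `n` inputs
and `s` gates computes the values in the list `l`; here `L.length` is the number of its scalar
multiplications which are allowed to have an unrestricted coefficient, all the other scalar
multiplications have a coefficient of modulus at most `C`. Here `C` is a power `n ^ δ`.
-/

namespace Vale.Agent.Results.P344.PowerCoefficients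

open Vale.Agent.P344

/-- Linear circuits for the discrete Fourier transform of length `n`, with `r = L.length`
unrestricted scalar multiplications and any number of scalar multiplications with coefficients of
modulus at most `n ^ δ` (or at most `C`): lower bounds on the number `s` of gates for
`r ≤ (1 - ε) n`, and the number of very large coefficients in circuits of linear size. -/
theorem result :
    (∀ ε δ : ℝ, 0 < ε → 0 < δ → ∃ N : ℕ, ∀ n : ℕ, N ≤ n →
      ∀ (l : List (Form n)) (s : ℕ) (L : List (Form n)), Comp n ((n : ℝ) ^ δ) l s L →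
        (∀ j : Fin n, dft n j ∈ l) → (L.length : ℝ) ≤ (1 - ε) * n → ε / (4 * δ) * n ≤ s) ∧
    (∀ ε K : ℝ, 0 < ε → 0 < K → ∃ N : ℕ, ∀ n : ℕ, N ≤ n →
      ∀ (l : List (Form n)) (s : ℕ) (L : List (Form n)),
        Comp n ((n : ℝ) ^ (ε / (5 * K))) l s L → (∀ j : Fin n, dft n j ∈ l) →
          (s : ℝ) ≤ K * n → (1 - ε) * n < (L.length : ℝ)) ∧
    (∀ ε C : ℝ, 0 < ε → 2 ≤ C → ∃ c : ℝ, 0 < c ∧ ∃ N : ℕ, ∀ n : ℕ, N ≤ n →
      ∀ (l : List (Form n)) (s : ℕ) (L : List (Form n)), Comp n C l s L →
        (∀ j : Fin n, dft n j ∈ l) → (L.length : ℝ) ≤ (1 - ε) * n →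
          c * n * Real.logb 2 n ≤ s) :=
  ⟨fun _ _ hε hδ => poly_bound hε hδ, fun _ _ hε hK => poly_structure hε hK,
    fun _ _ hε hC => asymptotic hε hC⟩

end Vale.Agent.Results.P344.PowerCoefficients
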