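import Vale.Agent.Lib.P344L.Main

/-!
# P344: every linear circuit for the DFT has `(3 - o(1)) n` gates; scalars of modulus above `1`
-/

namespace Vale.Agent.Results.P344.ThreeN

open Vale.Agent.P344L

theorem result (n : ℕ) (hn : 2 ≤ n) (C : List Gate) (h : Computes n C) :
    3 * (n : ℝ) - 2 - 2 * n * (Real.log 5 / Real.log n) ≤ C.length ∧
    ((n : ℝ) - bigs C) * Real.log n ≤ ((C.length : ℝ) - bigs C) * Real.log 5 :=
  ⟨size_ge hn h, tradeoff hn h⟩

end Vale.Agent.Results.P344.ThreeN
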